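import Vale.Agent.Lib.P201.helper40.Fox

/-!
# The separation lemma for the free differential calculus (helper40, for P201)

`lemmaC`: a set of elements of `K[FreeGroup X]` that is stable under all Fox derivatives and
contained in the augmentation kernel consists of `0` only.
-/

namespace Vale.Agent.Lib.P201.H40

open MonoidAlgebra FreeGroup

noncomputable section

open Classical

variable (K : Type*) [CommRing K] {X : Type*}

theorem toWord_cons (s : X × Bool) (g : FreeGroup X) (h : IsReduced (s :: g.toWord)) :
    (FreeGroup.mk [s] * g).toWord = s :: g.toWord := by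
  have e : FreeGroup.mk [s] * g = FreeGroup.mk (s :: g.toWord) := by
    conv_lhs => rw [← FreeGroup.mk_toWord (x := g)]
    rw [FreeGroup.mul_mk]
    rfl
  rw [e, FreeGroup.toWord_mk, h.reduce_eq]

theorem word_induction {P : FreeGroup X → Prop} (h1 : P 1)
    (hs : ∀ (s : X × Bool) (g : FreeGroup X), IsReduced (s :: g.toWord) → P g →
      P (FreeGroup.mk [s] * g)) : ∀ g, P g := by
  have key : ∀ (L : List (X × Bool)) (g : FreeGroup X), g.toWord = L → P g := by
    intro L
    induction L with
    | nil =>
      intro g hg
      rw [FreeGroup.toWord_eq_nil_iff] at hg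
      rw [hg]
      exact h1
    | cons s w ih =>
      intro g hg
      have hred : IsReduced (s :: w) := hg ▸ FreeGroup.isReduced_toWord
      have hw : IsReduced w := by
        cases w with
        | nil => exact IsReduced.nil
        | cons a w' => exact (FreeGroup.isReduced_cons_cons.mp hred).2
      have hg' : (FreeGroup.mk w).toWord = w := by
        rw [FreeGroup.toWord_mk]
        exact hw.reduce_eq
      have e : g = FreeGroup.mk [s] * FreeGroup.mk w := by
        rw [FreeGroup.mul_mk]
        show g = FreeGroup.mk (s :: w)
        rw [← hg, FreeGroup.mk_toWord]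
      rw [e]
      exact hs s _ (by rw [hg']; exact hred) (ih _ hg')
  exact fun g => key _ g rfl

theorem mk_false (y : X) : (FreeGroup.mk [(y, false)] : FreeGroup X) = (FreeGroup.of y)⁻¹ := rfl

theorem mk_true (y : X) : (FreeGroup.mk [(y, true)] : FreeGroup X) = FreeGroup.of y := rfl

/-- Top coefficients of the Fox derivative of a group element. -/
theorem fd_coeff_top (x : X) (g : FreeGroup X) : ∀ h : FreeGroup X,
    g.toWord.length ≤ h.toWord.length →
    (fd K x g).coeff h = if h = g ∧ g.toWord.head? = some (x, false) then -1 else 0 := by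
  refine word_induction (P := fun g => ∀ h : FreeGroup X, g.toWord.length ≤ h.toWord.length →
    (fd K x g).coeff h = if h = g ∧ g.toWord.head? = some (x, false) then -1 else 0) ?_ ?_ g
  · intro h _
    simp [fd_one]
  · intro s g hred ih h hh
    rw [toWord_cons s g hred] at hh ⊢
    have hlt : g.toWord.length < h.toWord.length := by
      simp only [List.length_cons] at hh
      omega
    have hne : h ≠ g := by
      rintro rfl
      exact lt_irrefl _ hlt
    rw [fd_mul, coeff_add, Finsupp.add_apply, ih h hlt.le, if_neg (fun hc => hne hc.1), add_zero]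
    obtain ⟨y, b⟩ := s
    cases b
    · rw [mk_false]
      by_cases hyx : y = x
      · subst hyx
        rw [fd_inv_of_self, neg_mul, single_mul_single, coeff_neg, Finsupp.neg_apply,
          coeff_single, Finsupp.single_apply]
        by_cases hh2 : h = (FreeGroup.of y)⁻¹ * g
        · simp [hh2]
        · simp [hh2, Ne.symm hh2]
      · rw [fd_inv_of_ne K x y hyx, zero_mul]
        simp [hyx]
    · rw [mk_true]
      by_cases hyx : y = x
      · subst hyx
        rw [fd_of_self, one_mul, coeff_single, Finsupp.single_apply, if_neg (Ne.symm hne)]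
        simp
      · rw [fd_of_ne K x y hyx, zero_mul]
        simp

/-- Coefficients of the Fox derivative one level below the top. -/
theorem fd_coeff_sub (y : X) (g' : FreeGroup X) (hg' : IsReduced ((y, true) :: g'.toWord))
    (g : FreeGroup X) (hlen : g.toWord.length ≤ g'.toWord.length + 1) :
    (fd K y g).coeff g' = if g = FreeGroup.of y * g' then 1 else 0 := by
  have hw : (FreeGroup.of y * g').toWord = (y, true) :: g'.toWord := toWord_cons (y, true) g' hg'
  have hnf : g'.toWord.head? ≠ some (y, false) := by
    intro hc
    cases hl : g'.toWord with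
    | nil =>
      rw [hl] at hc
      simp at hc
    | cons a w =>
      rw [hl] at hc hg'
      simp only [List.head?_cons, Option.some.injEq] at hc
      subst hc
      rw [FreeGroup.isReduced_cons_cons] at hg'
      simpa using hg'.1
  revert hlen
  refine word_induction (P := fun g => g.toWord.length ≤ g'.toWord.length + 1 →
    (fd K y g).coeff g' = if g = FreeGroup.of y * g' then 1 else 0) ?_ ?_ g
  · intro _
    have h1 : (1 : FreeGroup X) ≠ FreeGroup.of y * g' := by
      intro hc
      have h2 := congrArg FreeGroup.toWord hc
      rw [hw, FreeGroup.toWord_one] at h2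
      simp at h2
    simp [fd_one, h1]
  · intro s g hred _ hlen
    rw [toWord_cons s g hred] at hlen
    have hle : g.toWord.length ≤ g'.toWord.length := by
      simp only [List.length_cons] at hlen
      omega
    rw [fd_mul, coeff_add, Finsupp.add_apply, fd_coeff_top K y g g' hle,
      if_neg (fun hc => hnf (by rw [hc.1]; exact hc.2)), add_zero]
    obtain ⟨z, b⟩ := s
    cases b
    · rw [mk_false]
      have hne : (FreeGroup.of z)⁻¹ * g ≠ FreeGroup.of y * g' := by
        intro hc
        have h2 := congrArg FreeGroup.toWord hc
        rw [hw, ← mk_false, toWord_cons _ g hred] at h2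
        simp at h2
      rw [if_neg hne]
      by_cases hzy : z = y
      · subst hzy
        rw [fd_inv_of_self, neg_mul, single_mul_single, coeff_neg, Finsupp.neg_apply,
          coeff_single, Finsupp.single_apply, if_neg, neg_zero]
        intro hc
        apply hnf
        rw [← hc, ← mk_false, toWord_cons _ g hred]
        rfl
      · rw [fd_inv_of_ne K y z hzy, zero_mul]
        simp
    · rw [mk_true]
      by_cases hzy : z = y
      · subst hzy
        rw [fd_of_self, one_mul, coeff_single, Finsupp.single_apply]
        simp
      · rw [fd_of_ne K y z hzy, zero_mul]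
        have hne : FreeGroup.of z * g ≠ FreeGroup.of y * g' := by
          intro hc
          have h2 := congrArg FreeGroup.toWord hc
          rw [hw, ← mk_true, toWord_cons _ g hred] at h2
          simp only [List.cons.injEq, Prod.mk.injEq] at h2
          exact hzy h2.1.1
        simp [hne]

theorem D_coeff (x : X) (r : MonoidAlgebra K (FreeGroup X)) (h : FreeGroup X) :
    (D K x r).coeff h = ∑ g ∈ r.coeff.support, r.coeff g * (fd K x g).coeff h := by
  have e : D K x r = ∑ g ∈ r.coeff.support, r.coeff g • fd K x g := by
    simp [D, Finsupp.linearCombination_apply, Finsupp.sum]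
  rw [e, coeff_sum, Finsupp.finsetSum_apply]
  simp [coeff_smul]

/-- Top coefficients of a derivative. -/
theorem D_coeff_top (x : X) (r : MonoidAlgebra K (FreeGroup X)) (h : FreeGroup X)
    (hr : ∀ g, r.coeff g ≠ 0 → g.toWord.length ≤ h.toWord.length) :
    (D K x r).coeff h = if h.toWord.head? = some (x, false) then - r.coeff h else 0 := by
  rw [D_coeff, Finset.sum_congr rfl (fun g hg => by
    rw [fd_coeff_top K x g h (hr g (Finsupp.mem_support_iff.mp hg))])]
  rw [Finset.sum_eq_single h]
  · by_cases hh : h.toWord.head? = some (x, false) <;> simp [hh]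
  · intro g _ hne
    rw [if_neg (fun hc => hne hc.1.symm), mul_zero]
  · intro hnot
    rw [Finsupp.notMem_support_iff.mp hnot, zero_mul]

/-- Coefficients of a derivative one level below the top. -/
theorem D_coeff_sub (y : X) (r : MonoidAlgebra K (FreeGroup X)) (g' : FreeGroup X)
    (hg' : IsReduced ((y, true) :: g'.toWord))
    (hr : ∀ g, r.coeff g ≠ 0 → g.toWord.length ≤ g'.toWord.length + 1) :
    (D K y r).coeff g' = r.coeff (FreeGroup.of y * g') := by
  rw [D_coeff, Finset.sum_congr rfl (fun g hg => by
    rw [fd_coeff_sub K y g' hg' g (hr g (Finsupp.mem_support_iff.mp hg))])]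
  rw [Finset.sum_eq_single (FreeGroup.of y * g')]
  · simp
  · intro g _ hne
    rw [if_neg hne, mul_zero]
  · intro hnot
    rw [Finsupp.notMem_support_iff.mp hnot, zero_mul]

/-- Iterated derivative along a list of generators. -/
def Dw : List X → MonoidAlgebra K (FreeGroup X) →ₗ[K] MonoidAlgebra K (FreeGroup X)
  | [] => LinearMap.id
  | x :: l => (Dw l).comp (D K x)

/-- Elements all of whose iterated derivatives have augmentation zero. -/
def InI (r : MonoidAlgebra K (FreeGroup X)) : Prop :=
  ∀ l : List X, aug K (FreeGroup X) (Dw K l r) = 0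

theorem InI_aug {r : MonoidAlgebra K (FreeGroup X)} (h : InI K r) :
    aug K (FreeGroup X) r = 0 := h []

theorem InI_D {r : MonoidAlgebra K (FreeGroup X)} (h : InI K r) (x : X) : InI K (D K x r) :=
  fun l => h (x :: l)

theorem InI_add {r r' : MonoidAlgebra K (FreeGroup X)} (h : InI K r) (h' : InI K r') :
    InI K (r + r') := fun l => by
  rw [map_add, map_add, h l, h' l, add_zero]

theorem InI_mul : ∀ (l : List X) (u r : MonoidAlgebra K (FreeGroup X)), InI K r →
    aug K (FreeGroup X) (Dw K l (u * r)) = 0
  | [], u, r, h => by
    show aug K (FreeGroup X) (u * r) = 0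
    rw [_root_.map_mul, InI_aug K h, mul_zero]
  | x :: l, u, r, h => by
    show aug K (FreeGroup X) (Dw K l (D K x (u * r))) = 0
    rw [D_mul, map_add, map_add, map_smul, map_smul, InI_mul l _ r h, (InI_D K h x) l,
      smul_zero, add_zero]

theorem exists_cons (g : FreeGroup X) (h : g.toWord ≠ []) :
    ∃ s g', g = FreeGroup.mk [s] * g' ∧ IsReduced (s :: g'.toWord) := by
  revert h
  refine word_induction (P := fun g => g.toWord ≠ [] →
    ∃ s g', g = FreeGroup.mk [s] * g' ∧ IsReduced (s :: g'.toWord)) ?_ ?_ g
  · intro h
    exact absurd FreeGroup.toWord_one h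
  · intro s g hred _ _
    exact ⟨s, g, rfl, hred⟩

theorem of_mul_cases (y : X) (k : FreeGroup X) :
    IsReduced ((y, true) :: k.toWord) ∨
      ∃ k', k = (FreeGroup.of y)⁻¹ * k' ∧ IsReduced ((y, false) :: k'.toWord) := by
  by_cases hk : k.toWord = []
  · left
    rw [hk]
    exact IsReduced.singleton
  · obtain ⟨s, k', hk', hred⟩ := exists_cons k hk
    by_cases hs : s = (y, false)
    · right
      subst hs
      exact ⟨k', hk', hred⟩
    · left
      rw [hk', toWord_cons s k' hred, FreeGroup.isReduced_cons_cons]
      refine ⟨fun h1 => ?_, hred⟩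
      obtain ⟨z, b⟩ := s
      simp only at h1 ⊢
      subst h1
      cases b
      · exact absurd rfl hs
      · rfl

theorem descent_step (L n : ℕ)
    (ihL : ∀ r : MonoidAlgebra K (FreeGroup X), InI K r →
      (∀ g, r.coeff g ≠ 0 → g.toWord.length ≤ L) → r = 0)
    (ihn : ∀ r : MonoidAlgebra K (FreeGroup X), InI K r →
      (∀ g, r.coeff g ≠ 0 → g.toWord.length ≤ L + 1) →
      (r.coeff.support.filter (fun g => g.toWord.length = L + 1)).card ≤ n → r = 0)
    (r : MonoidAlgebra K (FreeGroup X)) (hI : InI K r)
    (hb : ∀ g, r.coeff g ≠ 0 → g.toWord.length ≤ L + 1)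
    (hc : (r.coeff.support.filter (fun g => g.toWord.length = L + 1)).card ≤ n + 1) : r = 0 := by
  by_cases hb' : ∀ g, r.coeff g ≠ 0 → g.toWord.length ≤ L
  · exact ihL r hI hb'
  push Not at hb'
  obtain ⟨g0, hg0, hg0L⟩ := hb'
  have hg0len : g0.toWord.length = L + 1 := le_antisymm (hb g0 hg0) hg0L
  have hDb : ∀ y g, (D K y r).coeff g ≠ 0 → g.toWord.length ≤ L + 1 := by
    intro y g hg
    by_contra hlt
    push Not at hlt
    have h1 := D_coeff_top K y r g (fun g' hg' => (hb g' hg').trans hlt.le)
    have h2 : r.coeff g = 0 := by
      by_contra h3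
      exact absurd (hb g h3) (not_le.mpr hlt)
    rw [h2, neg_zero, ite_self] at h1
    exact hg h1
  have hDtop : ∀ y g, (D K y r).coeff g ≠ 0 → g.toWord.length = L + 1 →
      g.toWord.head? = some (y, false) ∧ r.coeff g ≠ 0 := by
    intro y g hg hlen
    have h1 := D_coeff_top K y r g (fun g' hg' => by rw [hlen]; exact hb g' hg')
    rw [h1] at hg
    by_cases hh : g.toWord.head? = some (y, false)
    · rw [if_pos hh] at hg
      exact ⟨hh, fun h0 => hg (by rw [h0, neg_zero])⟩
    · rw [if_neg hh] at hg
      exact absurd rfl hg
  have hDzero : ∀ y g1, r.coeff g1 ≠ 0 → g1.toWord.length = L + 1 →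
      g1.toWord.head? ≠ some (y, false) → D K y r = 0 := by
    intro y g1 hg1 hg1len hg1h
    apply ihn (D K y r) (InI_D K hI y) (hDb y)
    have hsub : (D K y r).coeff.support.filter (fun g => g.toWord.length = L + 1) ⊆
        (r.coeff.support.filter (fun g => g.toWord.length = L + 1)).erase g1 := by
      intro g hg
      rw [Finset.mem_filter, Finsupp.mem_support_iff] at hg
      obtain ⟨h1, h2⟩ := hDtop y g hg.1 hg.2
      rw [Finset.mem_erase, Finset.mem_filter, Finsupp.mem_support_iff]
      exact ⟨fun hc => hg1h (hc ▸ h1), h2, hg.2⟩
    have h3 := Finset.card_le_card hsub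
    rw [Finset.card_erase_of_mem (by
      rw [Finset.mem_filter, Finsupp.mem_support_iff]
      exact ⟨hg1, hg1len⟩)] at h3
    omega
  obtain ⟨s, g', hg0e, hred⟩ := exists_cons g0 (by
    intro h
    rw [h] at hg0len
    simp at hg0len)
  have hw : g0.toWord = s :: g'.toWord := by
    rw [hg0e]
    exact toWord_cons s g' hred
  have hg'len : g'.toWord.length = L := by
    rw [hw] at hg0len
    simpa using hg0len
  obtain ⟨y, b⟩ := s
  cases b
  · by_cases hall : ∀ g, r.coeff g ≠ 0 → g.toWord.length = L + 1 →
        g.toWord.head? = some (y, false)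
    · have h2 : r + D K y r = 0 := by
        apply ihL _ (InI_add K hI (InI_D K hI y))
        intro g hg
        by_contra hlt
        push Not at hlt
        have h1 := D_coeff_top K y r g (fun g' hg' => (hb g' hg').trans hlt)
        apply hg
        rw [coeff_add, Finsupp.add_apply, h1]
        by_cases h3 : r.coeff g = 0
        · rw [h3, neg_zero, ite_self, add_zero]
        · have h4 := hall g h3 (le_antisymm (hb g h3) hlt)
          rw [if_pos h4, add_neg_cancel]
      have h3 : single (FreeGroup.of y) (1 : K) * r = 0 := by
        apply ihL _ (fun l => InI_mul K l _ r hI)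
        intro g hg
        rw [coeff_single_mul_apply, one_mul] at hg
        have hgk : g = FreeGroup.of y * ((FreeGroup.of y)⁻¹ * g) := by
          rw [mul_inv_cancel_left]
        generalize (FreeGroup.of y)⁻¹ * g = k at hg hgk
        rcases of_mul_cases y k with hred' | ⟨k', hk', hred'⟩
        · have hwg : g.toWord = (y, true) :: k.toWord := by
            rw [hgk]
            exact toWord_cons (y, true) k hred'
          by_contra hlt
          push Not at hlt
          rw [hwg, List.length_cons] at hlt
          have h4 := D_coeff_sub K y r k hred' (fun g'' hg'' => by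
            have h9 := hb g'' hg''
            omega)
          have h5 : r.coeff g = 0 := by
            by_contra h6
            have h7 := hall g h6 (le_antisymm (hb g h6) (by
              rw [hwg, List.length_cons]
              omega))
            rw [hwg] at h7
            simp at h7
          rw [← hgk, h5] at h4
          have h8 : (r + D K y r).coeff k = 0 := by rw [h2]; rfl
          rw [coeff_add, Finsupp.add_apply, h4, add_zero] at h8
          exact hg h8
        · have hwk : k.toWord = (y, false) :: k'.toWord := by
            rw [hk', ← mk_false]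
            exact toWord_cons (y, false) k' hred'
          have hgk' : g = k' := by rw [hgk, hk', mul_inv_cancel_left]
          have h4 := hb k hg
          rw [hwk, List.length_cons] at h4
          rw [hgk']
          omega
      have h4 : r = single (FreeGroup.of y)⁻¹ (1 : K) * (single (FreeGroup.of y) 1 * r) := by
        rw [← mul_assoc, single_mul_single, inv_mul_cancel, one_mul, ← one_def, one_mul]
      rw [h4, h3, mul_zero]
    · push Not at hall
      obtain ⟨g1, hg1, hg1len, hg1h⟩ := hall
      have h1 := hDzero y g1 hg1 hg1len hg1h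
      have h2 := D_coeff_top K y r g0 (fun g' hg' => by rw [hg0len]; exact hb g' hg')
      rw [h1, hw] at h2
      simp at h2
      exact absurd h2 hg0
  · have h1 := hDzero y g0 hg0 hg0len (by rw [hw]; simp)
    have h2 := D_coeff_sub K y r g' hred (fun g'' hg'' => by rw [hg'len]; exact hb g'' hg'')
    rw [h1] at h2
    have h3 : r.coeff g0 = 0 := by
      rw [hg0e]
      exact h2.symm
    exact absurd h3 hg0

theorem descent (L : ℕ) : ∀ (n : ℕ) (r : MonoidAlgebra K (FreeGroup X)), InI K r →
    (∀ g, r.coeff g ≠ 0 → g.toWord.length ≤ L) →
    (r.coeff.support.filter (fun g => g.toWord.length = L)).card ≤ n → r = 0 := by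
  induction L with
  | zero =>
    intro n r hI hb _
    have h1 : r = single 1 (r.coeff 1) := by
      apply coeff_injective
      ext g
      rw [coeff_single, Finsupp.single_apply]
      split_ifs with hg
      · rw [hg]
      · by_contra hne
        have h2 := hb g hne
        exact hg ((FreeGroup.toWord_eq_nil_iff.mp
          (List.length_eq_zero_iff.mp (Nat.le_zero.mp h2))).symm)
    have h2 := InI_aug K hI
    rw [h1, aug_single] at h2
    rw [h1, h2, single_zero]
  | succ L ihL =>
    have ihL' : ∀ r : MonoidAlgebra K (FreeGroup X), InI K r →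
        (∀ g, r.coeff g ≠ 0 → g.toWord.length ≤ L) → r = 0 :=
      fun r hI hb => ihL _ r hI hb le_rfl
    intro n
    induction n with
    | zero =>
      intro r hI hb hc
      apply ihL' r hI
      intro g hg
      have h1 := hb g hg
      by_contra h2
      have h3 : g ∈ r.coeff.support.filter (fun g => g.toWord.length = L + 1) := by
        rw [Finset.mem_filter, Finsupp.mem_support_iff]
        exact ⟨hg, by omega⟩
      have h4 := Finset.card_pos.mpr ⟨g, h3⟩
      omega
    | succ n ihn =>
      intro r hI hb hc
      exact descent_step K L n ihL' ihn r hI hb hc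

/-- **Separation lemma.** A set of elements of `K[FreeGroup X]` that is stable under all Fox
derivatives and lies in the augmentation kernel contains only `0`. -/
theorem lemmaC (P : MonoidAlgebra K (FreeGroup X) → Prop)
    (h0 : ∀ r, P r → aug K (FreeGroup X) r = 0)
    (hD : ∀ r x, P r → P (D K x r)) : ∀ r, P r → r = 0 := by
  have hP : ∀ (l : List X) (r : MonoidAlgebra K (FreeGroup X)), P r → P (Dw K l r) := by
    intro l
    induction l with
    | nil =>
      intro r hr
      exact hr
    | cons x l ih =>
      intro r hr
      exact ih _ (hD r x hr)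
  intro r hr
  have hI : InI K r := fun l => h0 _ (hP l r hr)
  exact descent K (r.coeff.support.sup (fun g => g.toWord.length)) _ r hI
    (fun g hg => Finset.le_sup (f := fun g => g.toWord.length)
      (Finsupp.mem_support_iff.mpr hg)) le_rfl

end

end Vale.Agent.Lib.P201.H40
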