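import Mathlib

/-!
# Fox derivatives on the group algebra of a free group (helper40, for P201)

`fd K x g` is the Fox derivative of the group element `g` with respect to the generator `x`,
normalised by `fd x (g * h) = fd x g * h + fd x h`, `fd x (of x) = 1`.
`D K x` is its `K`-linear extension to the group algebra, `aug` the augmentation.
-/

namespace Vale.Agent.Lib.P201.H40

open MonoidAlgebra

noncomputable section

variable (K : Type*) [CommRing K] {X : Type*}

/-- The lower triangular matrix with rows `g, 0` and `c, 1`. -/
def foxMat (g : FreeGroup X) (c : MonoidAlgebra K (FreeGroup X)) :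
    Matrix (Fin 2) (Fin 2) (MonoidAlgebra K (FreeGroup X)) :=
  !![single g 1, 0; c, 1]

theorem foxMat_mul (g h : FreeGroup X) (c d : MonoidAlgebra K (FreeGroup X)) :
    foxMat K g c * foxMat K h d = foxMat K (g * h) (c * single h 1 + d) := by
  unfold foxMat
  rw [Matrix.mul_fin_two]
  simp [single_mul_single]

theorem foxMat_one : foxMat K (1 : FreeGroup X) 0 = 1 := by
  unfold foxMat
  rw [Matrix.one_fin_two]
  simp [one_def]

open Classical in
/-- The unit attached to the generator `y` for the derivative with respect to `x`. -/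
def foxUnit (x y : X) : (Matrix (Fin 2) (Fin 2) (MonoidAlgebra K (FreeGroup X)))ˣ where
  val := foxMat K (FreeGroup.of y) (if y = x then 1 else 0)
  inv := foxMat K (FreeGroup.of y)⁻¹ (if y = x then - single (FreeGroup.of y)⁻¹ 1 else 0)
  val_inv := by
    rw [foxMat_mul, ← foxMat_one]
    congr 1
    · simp
    · split_ifs <;> simp
  inv_val := by
    rw [foxMat_mul, ← foxMat_one]
    congr 1
    · simp
    · split_ifs <;> simp [single_mul_single, one_def]

/-- The group homomorphism `g ↦ !![g, 0; fd x g, 1]`. -/
def foxHom (x : X) :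
    FreeGroup X →* (Matrix (Fin 2) (Fin 2) (MonoidAlgebra K (FreeGroup X)))ˣ :=
  FreeGroup.lift (foxUnit K x)

/-- The Fox derivative of the group element `g` with respect to the generator `x`. -/
def fd (x : X) (g : FreeGroup X) : MonoidAlgebra K (FreeGroup X) :=
  (foxHom K x g).val 1 0

theorem foxHom_val (x : X) (g : FreeGroup X) :
    (foxHom K x g).val = foxMat K g (fd K x g) := by
  have h : ∃ c, (foxHom K x g).val = foxMat K g c := by
    induction g using FreeGroup.induction_on with
    | C1 => exact ⟨0, by rw [map_one, Units.val_one, foxMat_one]⟩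
    | of y => exact ⟨_, by rw [foxHom, FreeGroup.lift_apply_of]; rfl⟩
    | inv_of y _ => exact ⟨_, by rw [foxHom, map_inv, FreeGroup.lift_apply_of]; rfl⟩
    | mul g h hg hh =>
      obtain ⟨c, hc⟩ := hg
      obtain ⟨d, hd⟩ := hh
      exact ⟨_, by rw [map_mul, Units.val_mul, hc, hd, foxMat_mul]⟩
  obtain ⟨c, hc⟩ := h
  have h2 : fd K x g = c := by
    unfold fd
    rw [hc]
    rfl
  rw [h2, hc]

theorem fd_one (x : X) : fd K x (1 : FreeGroup X) = 0 := by
  simp [fd]

theorem fd_mul (x : X) (g h : FreeGroup X) :
    fd K x (g * h) = fd K x g * single h 1 + fd K x h := by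
  have h1 := foxHom_val K x (g * h)
  rw [map_mul, Units.val_mul, foxHom_val, foxHom_val, foxMat_mul] at h1
  have h2 := congrFun (congrFun h1 1) 0
  simpa [foxMat] using h2.symm

theorem fd_of_self (x : X) : fd K x (FreeGroup.of x) = 1 := by
  simp [fd, foxHom, foxUnit, foxMat]

theorem fd_of_ne (x y : X) (h : y ≠ x) : fd K x (FreeGroup.of y) = 0 := by
  simp [fd, foxHom, foxUnit, foxMat, h]

theorem fd_inv (x : X) (g : FreeGroup X) :
    fd K x g⁻¹ = - (fd K x g * single g⁻¹ 1) := by
  have h1 := fd_mul K x g g⁻¹
  rw [mul_inv_cancel, fd_one] at h1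
  exact eq_neg_of_add_eq_zero_right h1.symm

theorem fd_inv_of_self (x : X) :
    fd K x (FreeGroup.of x)⁻¹ = - single (FreeGroup.of x)⁻¹ 1 := by
  rw [fd_inv, fd_of_self, one_mul]

theorem fd_inv_of_ne (x y : X) (h : y ≠ x) : fd K x (FreeGroup.of y)⁻¹ = 0 := by
  rw [fd_inv, fd_of_ne K x y h, zero_mul, neg_zero]

/-- Outside a finite set of generators the Fox derivatives of `g` vanish, and the fundamental
formula holds for every finite set of generators containing it. -/
theorem fox_aux (g : FreeGroup X) : ∃ t : Finset X, (∀ x, x ∉ t → fd K x g = 0) ∧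
    ∀ s : Finset X, t ⊆ s →
      single g (1 : K) = 1 + ∑ x ∈ s, (single (FreeGroup.of x) 1 - 1) * fd K x g := by
  classical
  induction g using FreeGroup.induction_on with
  | C1 => exact ⟨∅, fun x _ => fd_one K x, fun s _ => by simp [fd_one, one_def]⟩
  | of y =>
    refine ⟨{y}, fun x hx => fd_of_ne K x y (by simpa [eq_comm] using hx), fun s hs => ?_⟩
    have hy : y ∈ s := hs (Finset.mem_singleton_self y)
    rw [Finset.sum_eq_single_of_mem y hy
      (fun x _ hxy => by rw [fd_of_ne K x y (Ne.symm hxy), mul_zero]), fd_of_self, mul_one]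
    abel
  | inv_of y _ =>
    refine ⟨{y}, fun x hx => fd_inv_of_ne K x y (by simpa [eq_comm] using hx), fun s hs => ?_⟩
    have hy : y ∈ s := hs (Finset.mem_singleton_self y)
    rw [Finset.sum_eq_single_of_mem y hy
      (fun x _ hxy => by rw [fd_inv_of_ne K x y (Ne.symm hxy), mul_zero]), fd_inv_of_self,
      mul_neg, sub_mul, single_mul_single, mul_inv_cancel, one_mul, one_mul, ← one_def]
    abel
  | mul g h hg hh =>
    obtain ⟨tg, hg0, hg1⟩ := hg
    obtain ⟨th, hh0, hh1⟩ := hh
    refine ⟨tg ∪ th, fun x hx => ?_, fun s hs => ?_⟩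
    · rw [Finset.mem_union, not_or] at hx
      rw [fd_mul, hg0 x hx.1, hh0 x hx.2, zero_mul, add_zero]
    · have e1 := hg1 s (Finset.union_subset_left hs)
      have e2 := hh1 s (Finset.union_subset_right hs)
      have e3 : ∑ x ∈ s, (single (FreeGroup.of x) 1 - 1) * (fd K x g * single h 1) =
          (single g 1 - 1) * single h (1 : K) := by
        rw [e1]
        simp only [add_sub_cancel_left, Finset.sum_mul, mul_assoc]
      have e4 : ∑ x ∈ s, (single (FreeGroup.of x) 1 - 1) * fd K x h = single h (1 : K) - 1 := by
        rw [e2]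
        simp
      simp only [fd_mul, mul_add, Finset.sum_add_distrib]
      rw [e3, e4, sub_mul, single_mul_single, one_mul, one_mul]
      abel

/-- Only finitely many Fox derivatives of a group element are nonzero. -/
theorem fd_finite (g : FreeGroup X) : {x | fd K x g ≠ 0}.Finite := by
  obtain ⟨t, ht, -⟩ := fox_aux K g
  exact t.finite_toSet.subset (fun x hx => by
    by_contra h
    exact hx (ht x h))

/-- The fundamental formula of the free differential calculus. -/
theorem fox_formula (g : FreeGroup X) (s : Finset X) (hs : ∀ x, fd K x g ≠ 0 → x ∈ s) :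
    single g (1 : K) = 1 + ∑ x ∈ s, (single (FreeGroup.of x) 1 - 1) * fd K x g := by
  classical
  obtain ⟨t, ht, h⟩ := fox_aux K g
  rw [h (s ∪ t) Finset.subset_union_right]
  congr 1
  symm
  apply Finset.sum_subset Finset.subset_union_left
  intro x _ hx
  have h0 : fd K x g = 0 := by
    by_contra h0
    exact hx (hs x h0)
  rw [h0, mul_zero]

/-- The augmentation of a group algebra. -/
def aug (G : Type*) [Group G] : MonoidAlgebra K G →ₐ[K] K :=
  MonoidAlgebra.lift K K G 1

@[simp]
theorem aug_single (G : Type*) [Group G] (g : G) (c : K) : aug K G (single g c) = c := by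
  simp [aug]

/-- The `K`-linear extension of the Fox derivative to the group algebra. -/
def D (x : X) : MonoidAlgebra K (FreeGroup X) →ₗ[K] MonoidAlgebra K (FreeGroup X) :=
  (Finsupp.linearCombination K (fd K x)).comp
    (coeffLinearEquiv K (S := K) (M := FreeGroup X)).toLinearMap

theorem D_single (x : X) (g : FreeGroup X) (c : K) : D K x (single g c) = c • fd K x g := by
  simp [D, Finsupp.linearCombination_single]

/-- The product rule. -/
theorem D_mul (x : X) (u v : MonoidAlgebra K (FreeGroup X)) :
    D K x (u * v) = D K x u * v + aug K (FreeGroup X) u • D K x v := by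
  induction u using MonoidAlgebra.induction_linear with
  | zero => simp
  | add u1 u2 h1 h2 =>
    simp only [add_mul, map_add, h1, h2, add_smul]
    abel
  | single g a =>
    induction v using MonoidAlgebra.induction_linear with
    | zero => simp
    | add v1 v2 h1 h2 =>
      simp only [mul_add, map_add, h1, h2, smul_add]
      abel
    | single h b =>
      have e : single h b = b • single h (1 : K) := by rw [smul_single', mul_one]
      rw [single_mul_single, D_single, D_single, D_single, aug_single, fd_mul, e]
      simp only [smul_mul_assoc, mul_smul_comm, smul_add, smul_smul]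
      rw [mul_comm b a]

end

end Vale.Agent.Lib.P201.H40
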