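import Vale.Agent.Lib.P201.helper40.LemmaC
import Vale.Agent.Lib.P201.helper60.FreeMain

/-!
# Free normal subgroups and zero divisors (helper40 + helper60, for P201)

Glue between the free differential calculus of `Fox.lean` / `LemmaC.lean` (helper40) and the
reduction `Free.noZero_of_free` (helper60).
-/

namespace Vale.Agent.Lib.P201.H40

open MonoidAlgebra

theorem aug_eq_eps (K : Type*) [CommRing K] {X : Type*} (r : MonoidAlgebra K (FreeGroup X)) :
    aug K (FreeGroup X) r = Free.eps K X r := by
  induction r using MonoidAlgebra.induction_linear with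
  | zero => simp
  | add u v hu hv => rw [map_add, map_add, hu, hv]
  | single g c => rw [aug_single, Free.eps_single]

/-- If `N` is a normal subgroup of `G` that is free (the isomorphic image of a free group
under an injective homomorphism `ι`) and the group algebra `K[G ⧸ N]` has no zero divisors,
then `K[G]` has no zero divisors. -/
theorem noZeroDivisors_of_free_kernel (K : Type*) [CommRing K] {X : Type*} {G : Type*} [Group G]
    (ι : FreeGroup X →* G) (hι : Function.Injective ι) (N : Subgroup G) [N.Normal]
    (hN : N = ι.range)
    (hQ : ∀ a b : MonoidAlgebra K (G ⧸ N), a * b = 0 → a = 0 ∨ b = 0) :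
    ∀ a b : MonoidAlgebra K G, a * b = 0 → a = 0 ∨ b = 0 := by
  refine Free.noZero_of_free ι hι N hN (fun x => (D K x).toAddMonoidHom) ?_ ?_ ?_ ?_ ?_ ?_ hQ
  · intro i f u
    show D K i (single f 1 * u) = D K i (single f 1) * u + D K i u
    rw [D_mul, aug_single, one_smul]
  · intro i
    show D K i (single (FreeGroup.of i) 1) = 1
    rw [D_single, one_smul, fd_of_self]
  · intro i j hij
    show D K j (single (FreeGroup.of i) 1) = 0
    rw [D_single, one_smul, fd_of_ne K j i hij]
  · intro f
    obtain ⟨t, ht, h⟩ := fox_aux K f
    refine ⟨t, fun i hi => ?_, ?_⟩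
    · show D K i (single f 1) = 0
      rw [D_single, one_smul, ht i hi]
    · have h1 := h t (Finset.Subset.refl t)
      have h2 : ∀ i : X, (D K i).toAddMonoidHom (single f (1 : K)) = fd K i f := by
        intro i
        show D K i (single f 1) = fd K i f
        rw [D_single, one_smul]
      simp only [h2]
      rw [sub_eq_iff_eq_add, add_comm]
      exact h1
  · intro i c u
    show D K i (single 1 c * u) = single 1 c * D K i u
    have e : single (1 : FreeGroup X) c = c • (1 : MonoidAlgebra K (FreeGroup X)) := by
      rw [one_def, smul_single', mul_one]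
    rw [D_mul, D_single, fd_one, smul_zero, zero_mul, zero_add, aug_single, e, smul_mul_assoc,
      one_mul]
  · intro r hr
    refine lemmaC K (fun r => ∀ l : List X,
      Free.eps K X (l.foldl (fun acc i => (D K i).toAddMonoidHom acc) r) = 0) ?_ ?_ r hr
    · intro r hr
      rw [aug_eq_eps]
      exact hr []
    · intro r x hr l
      exact hr (x :: l)

end Vale.Agent.Lib.P201.H40
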